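import Vale.Agent.P014U.X4F.Rec.Cor
import Vale.Agent.P004F.Rec.Q

/-!
# P014U, block REC: reciprocity at level `pp ^ N` over the rational field (helper42)
-/

set_option linter.all false

noncomputable section

namespace Vale.Agent.P014U.X4F.Rc

open NumberField
open Vale.Agent.P022 Vale.Agent.P022K Vale.Agent.P014U.X4S.Aq
open Vale.Agent.P027M.S (Inert)
open Vale.Agent.P022D.W (dec inP_le_dec exists_phi)
open Vale.Agent.P022.H443 (inP)
open Vale.Agent.P022E.GW (Ov Fb)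
open Vale.Agent.P022.H853 (cyc)
open Vale.Agent.P014U.X4S.Ga (K O Z2 B2 d2 d3 Pl)
open scoped Pointwise

variable [Pp]

namespace Q

export Vale.Agent.P004F.Rc.Q (pw_nat pw_add pw_mul pw_inj Lc gen0 nm_nat)

variable {N l : ℕ} {P : Ideal (𝓞 Qb)} {ζ r : Qb} {D : Subgroup GQ}

/-- the fraction -/
def vv (a : ZMod (pp ^ N)) : K := ((pp : K) ^ N)⁻¹ * a.val

variable (N) in
/-- the cyclotomic character at a finite level -/
def ec (g : GQ) : ZMod (pp ^ N) := PadicInt.toZModPow N (cz g)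

theorem ec_mul (g h : GQ) : ec N (g * h) = ec N g * ec N h := by simp [ec]

theorem ec_one (h : IsPrimitiveRoot ζ (pp ^ N)) {g : GQ} (e : g ζ = ζ) : ec N g = 1 :=
  pw_inj h (((cz_spec g h.pow_eq_one).symm.trans e).trans (by
    rw [← Nat.cast_one, pw_nat h.pow_eq_one, pow_one]))

theorem ec_in (h : Ov l P) (h2 : l ≠ pp) {g : GQ} (hg : Inert P g) : ec N g = 1 := by
  rw [ec, show (cz g : ℤ_[pp]) = 1 from Subtype.ext (cy_in h h2 hg), map_one]

theorem mem_of {x : K} (a : ℤ_[pp]) (h : PadicInt.toZModPow N a = 0) (e : x = ((pp : K) ^ N)⁻¹ * a) :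
    x ∈ O := O_of ((dv_iff N a).1 h) e

theorem vv_mul (k : ℕ) (a : ZMod (pp ^ N)) : k * vv a ∈ O ↔ k * a = 0 := by
  rw [show k * vv a = ((pp : K) ^ N)⁻¹ * ((k * a.val : ℕ) : ℤ_[pp]) by
    rw [vv, PadicInt.coe_natCast, Nat.cast_mul]; ring, ← dv_iff]
  simp

theorem ec_lc : Lc (ec N) := (ex_prim N).elim fun ζ h => ⟨_, G2.stab_open ζ, fun g w m => by
  rw [ec_mul, ec_one h m, mul_one]⟩

/-- cocycles -/
structure Co (k : GQ → ZMod (pp ^ N)) : Prop where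
  co : ∀ g h, k (g * h) = k g + ec N g * k h
  lc : Lc k

theorem Co.one {k : GQ → ZMod (pp ^ N)} (h : Co k) : k 1 = 0 := by
  simpa [ec] using h.co 1 1

theorem kum_co (hζ : IsPrimitiveRoot ζ (pp ^ N)) (r0 : r ≠ 0) {k : GQ → ZMod (pp ^ N)}
    (h : ∀ g : GQ, g r = ζ ^ (k g).val * r) : Co k := by
  have co : ∀ g j, k (g * j) = k g + ec N g * k j := fun g j => pw_inj hζ (mul_right_cancel₀ r0 (by
    rw [← h, AlgEquiv.mul_apply, h j, map_mul, map_pow, cz_spec g hζ.pow_eq_one, h g,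
      pw_add hζ.pow_eq_one, pw_mul hζ.pow_eq_one, ec]
    ring))
  refine ⟨co, _, G2.stab_open r, fun g w m => ?_⟩
  rw [co, pw_inj hζ (b := 0) (mul_right_cancel₀ r0 ((h w).symm.trans (m.trans (by simp)))),
    mul_zero, add_zero]

theorem co_sum (T : Finset ℕ) (b : ℕ → ZMod (pp ^ N)) {k : ℕ → GQ → ZMod (pp ^ N)}
    (h : ∀ l ∈ T, Co (k l)) : Co fun g => ∑ l ∈ T, b l * k l g := by
  refine ⟨fun g j => ?_, ⨅ l : T, (h l l.2).lc.choose, ?_, fun g w m => ?_⟩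
  · rw [Finset.mul_sum, ← Finset.sum_add_distrib]
    exact Finset.sum_congr rfl fun l m => by rw [(h l m).co]; ring
  · rw [Subgroup.coe_iInf]
    exact isOpen_iInter_of_finite fun l => (h l l.2).lc.choose_spec.1
  · exact Finset.sum_congr rfl fun l n => by
      rw [(h l n).lc.choose_spec.2 g w (Subgroup.mem_iInf.1 m ⟨l, n⟩)]

/-- the cup product -/
def cu (χ k : GQ → ZMod (pp ^ N)) (g h : GQ) : K := vv (χ g * (ec N g * k h))

theorem cu_z2 {χ k : GQ → ZMod (pp ^ N)} (ad : ∀ g h, χ (g * h) = χ g + χ h) (lc : Lc χ)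
    (h : Co k) : Z2 cy D (cu χ k) := by
  refine ⟨(IsLocallyConstant.comp (f := fun x : GQ × GQ => ((χ x.1, ec N x.1), k x.2))
    (((lc.lc.prodMk ec_lc.lc).comp_continuous continuous_fst).prodMk
      (h.lc.lc.comp_continuous continuous_snd))
    fun x => vv (x.1.1 * (x.1.2 * x.2))).continuous.continuousOn, fun g _ j _ i _ => ?_⟩
  refine mem_of (N := N) (cz g * (χ j * (ec N j * k i)).val - (χ (g * j) * (ec N (g * j) * k i)).val
    + (χ g * (ec N g * k (j * i))).val - (χ g * (ec N g * k j)).val) ?_ ?_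
  · simp only [map_sub, map_add, map_mul, map_natCast, ZMod.natCast_zmod_val, ad, h.co, ec_mul]
    rw [← ec]
    ring
  · simp only [d3, cu, vv, cy_apply]
    push_cast
    ring

theorem z2_sub' {y z : GQ → GQ → K} (a : Z2 cy D y) (b : Z2 cy D z) :
    Z2 cy D fun g h => y g h - z g h :=
  ⟨a.cont.sub b.cont, fun g hg j hj i hi =>
    O_of (sub_mem (a.coc g hg j hj i hi) (b.coc g hg j hj i hi)) (by simp only [d3]; ring)⟩

theorem b2_sub' {x y z : GQ → GQ → K} (a : B2 cy D y) (b : B2 cy D z)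
    (e : ∀ g ∈ D, ∀ h ∈ D, x g h - (y g h - z g h) ∈ O) : B2 cy D x := by
  obtain ⟨θ, a1, a2⟩ := a
  obtain ⟨η, b1, b2⟩ := b
  exact ⟨fun g => θ g - η g, a1.sub b1, fun g hg j hj => O_of (add_mem (e g hg j hj)
    (sub_mem (a2 g hg j hj) (b2 g hg j hj))) (by simp only [d2]; ring)⟩

theorem b2_zero {x : GQ → GQ → K} (e : ∀ g ∈ D, ∀ h ∈ D, x g h ∈ O) : B2 cy D x :=
  ⟨fun _ => 0, continuousOn_const, fun g hg j hj => O_of (e g hg j hj) (by simp [d2])⟩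

theorem pow_z2 {y : GQ → GQ → K} (a : Z2 cy D y) (j : ℕ) : Z2 cy D fun g h => (pp : K) ^ j * y g h :=
  ⟨continuousOn_const.mul a.cont, fun g hg h hh i hi =>
    O_of (O_mul (O_pow j) (a.coc g hg h hh i hi)) (by simp only [d3]; ring)⟩

theorem pow_b2 {y : GQ → GQ → K} (a : B2 cy D y) (j : ℕ) : B2 cy D fun g h => (pp : K) ^ j * y g h :=
  a.elim fun θ a => ⟨fun g => (pp : K) ^ j * θ g, continuousOn_const.mul a.1, fun g hg h hh =>
    O_of (O_mul (O_pow j) (a.2 g hg h hh)) (by simp only [d2]; ring)⟩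

theorem nm_pow (h : Ov l P) (h2 : l ≠ pp) : ((pp ^ N : ℕ) : 𝓞 Qb) ∉ P := nm_nat h fun d =>
  h2 ((Nat.prime_dvd_prime_iff_eq h.1 pp_prime).1 (h.1.dvd_of_dvd_pow d))

theorem kum_q (h : Ov l P) {z : 𝓞 Qb} {a e j : ℕ} (n : ¬ l ∣ a) (hr : r ^ pp ^ N = a) {g : GQ}
    (hg : ∀ x : 𝓞 Qb, g • x - x ^ (pp ^ N * e + 1) ∈ P) (k : g r = (z : Qb) ^ j * r) :
    z ^ j - (a : 𝓞 Qb) ^ e ∈ P := by
  let R : 𝓞 Qb := ⟨r, IsIntegral.of_pow (n := pp ^ N) (pw_pos _)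
    (hr ▸ isIntegral_natCast a)⟩
  have e1 : R ^ pp ^ N = a := RingOfIntegers.ext hr
  have e2 : g • R = z ^ j * R := RingOfIntegers.ext k
  have := hg R
  rw [e2, pow_succ, pow_mul, e1, ← sub_mul] at this
  exact (h.2.1.mem_or_mem this).resolve_right fun m =>
    nm_nat h n (e1 ▸ P.pow_mem_of_mem m _ (pw_pos _))

theorem kum_in (hζ : IsPrimitiveRoot ζ (pp ^ N)) (h : Ov l P) (h2 : l ≠ pp) {a : ℕ} (n : ¬ l ∣ a)
    (hr : r ^ pp ^ N = a) {g : GQ} (hg : Inert P g) {j : ZMod (pp ^ N)} (k : g r = ζ ^ j.val * r) :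
    j = 0 := by
  let z : 𝓞 Qb := ⟨ζ, hζ.isIntegral (pw_pos _)⟩
  have e : z ^ pp ^ N = 1 := RingOfIntegers.ext hζ.pow_eq_one
  have := P022E.GW.Unr.root_inj h.2.1 (nm_pow (N := N) h h2) (by rw [← pow_mul, mul_comm, pow_mul, e,
    one_pow]) (one_pow _) (pow_zero (a : 𝓞 Qb) ▸ kum_q h (z := z) (e := 0) n hr
      (fun x => by simpa using hg x) k)
  exact pw_inj hζ ((congrArg Subtype.val this).trans (by rw [ZMod.val_zero, pow_zero]; rfl))

theorem ex_chi [Fact l.Prime] (h : Ov l P) (h2 : l ≠ pp) {e : ℕ} (he : l = pp ^ N * e + 1)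
    {z : 𝓞 Qb} (hz : IsPrimitiveRoot z (pp ^ N)) : ∃ χ : GQ → ZMod (pp ^ N),
    (∀ g j, χ (g * j) = χ g + χ j) ∧ ∀ (g : GQ) (a : ℤ) (j : ZMod (pp ^ N)),
      (cyc l g : ZMod l) = a → (z ^ j.val - (a : 𝓞 Qb) ^ e ∈ P ↔ χ g = j) := by
  have := h.2.1
  have : CharP (𝓞 Qb ⧸ P) l :=
    (CharP.charP_iff_prime_eq_zero h.1).2 (Ideal.Quotient.eq_zero_iff_mem.2 h.2.2)
  let ι := ZMod.castHom (dvd_refl l) (𝓞 Qb ⧸ P)
  have pz : IsPrimitiveRoot (Ideal.Quotient.mk P z) (pp ^ N) := ⟨by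
    rw [← map_pow, hz.pow_eq_one, map_one], fun k hk => hz.dvd_of_pow_eq_one k
      (P022E.GW.Unr.root_inj h.2.1 (nm_pow (N := N) h h2) (by
        rw [← pow_mul, mul_comm, pow_mul, hz.pow_eq_one, one_pow]) (one_pow _)
        (Ideal.Quotient.eq.1 hk))⟩
  have : ∀ g : GQ, ∃ j : ZMod (pp ^ N), Ideal.Quotient.mk P z ^ j.val = ι (cyc l g) ^ e := fun g => by
    obtain ⟨j, -, hj⟩ := pz.eq_pow_of_pow_eq_one (ξ := ι (cyc l g) ^ e) (by
      rw [← pow_mul, mul_comm, ← map_pow, show pp ^ N * e = l - 1 by omega,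
        ZMod.pow_card_sub_one_eq_one (Units.ne_zero _), map_one])
    exact ⟨j, by rw [pw_nat pz.pow_eq_one, hj]⟩
  choose χ hχ using this
  refine ⟨χ, fun g j => pw_inj pz ?_, fun g a j k => ?_⟩
  · rw [pw_add pz.pow_eq_one, hχ, hχ, hχ, map_mul, Units.val_mul, map_mul, mul_pow]
  · rw [← Ideal.Quotient.eq, map_pow, map_pow, map_intCast, ← map_intCast ι, ← k, ← hχ]
    exact ⟨fun k => pw_inj pz k.symm, fun k => by rw [k]⟩

theorem fix_of (hζ : IsPrimitiveRoot ζ (pp ^ N)) {g : GQ} (h : g ζ = ζ) {x : Qb}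
    (hx : x ^ pp ^ N = 1) : g x = x := by
  obtain ⟨j, -, rfl⟩ := hζ.eq_pow_of_pow_eq_one hx
  rw [map_pow, h]

theorem gz_of {g : GQ} (h : ∀ x : Qb, x ^ pp ^ (N + 1) = 1 → g x = x) : g ∈ G2.Gz pp :=
  G2.mem_Gz'.2 (h _ (by rw [pow_succ', pow_mul, G2.zt_pow, one_pow]))

theorem pq_ne : ((pp : ℕ) : Qb) ≠ 0 := Nat.cast_ne_zero.2 pp_ne

theorem ex_g (L : Finset ℕ) (hL : ∀ l ∈ L, l.Prime ∧ l ≠ pp) (hζ : IsPrimitiveRoot ζ (pp ^ N))
    (hr : r ^ pp ^ N = pp) : ∃ g : GQ, g ζ = ζ ∧ g r = r ∧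
      ∀ l : ℕ, l.Prime → G2.ka pp (l : Qb) g = if l ∈ L then 1 else 0 := by
  classical
  induction L using Finset.induction_on with
  | empty => exact ⟨1, rfl, rfl, fun l hl => by
      simpa using (G2.ka_eq_zero (Nat.cast_ne_zero.2 hl.ne_zero) (G2.rt_pow pp (l : Qb)) (one_mem _)
        rfl).2 rfl⟩
  | insert q L n ih =>
    obtain ⟨g, g1, g2, g3⟩ := ih fun l m => hL l (Finset.mem_insert_of_mem m)
    obtain ⟨hq, q2⟩ := hL q (Finset.mem_insert_self _ _)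
    obtain ⟨P, o⟩ := GW.Pl.ex_ov hq
    obtain ⟨τ, t1, t2⟩ := G2.ex_tau (p := pp) o q2
    have r0 : r ≠ 0 := fun e => pq_ne (by rw [← hr, e, zero_pow (pw_pos _).ne'])
    obtain ⟨j, -, hj⟩ := hζ.eq_pow_of_pow_eq_one (ξ := τ r / r) (by
      rw [div_pow, ← map_pow, hr, map_natCast, div_self pq_ne])
    have k : τ r = ζ ^ (j : ZMod (pp ^ N)).val * r := by
      rw [pw_nat hζ.pow_eq_one, hj, div_mul_cancel₀ _ r0]
    refine ⟨τ * g, ?_, ?_, fun l hl => ?_⟩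
    · rw [AlgEquiv.mul_apply, g1, cz_spec τ hζ.pow_eq_one, ← ec, ec_in o q2 t1, ← Nat.cast_one,
        pw_nat hζ.pow_eq_one, pow_one]
    · rw [AlgEquiv.mul_apply, g2, k, kum_in hζ o q2 (fun d => q2 ((Nat.prime_dvd_prime_iff_eq hq
        pp_prime).1 d)) hr t1 k]
      simp
    · rw [G2.ka_add (Nat.cast_ne_zero.2 hl.ne_zero) ((G2.tam pp q P o q2).1 τ t1) (map_natCast τ l)
        (map_natCast g l), g3 l hl]
      by_cases e : l = q
      · rw [e, t2]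
        simp [n]
      · rw [show G2.ka pp (l : Qb) τ = 0 from G2.ka_int (x := l) o q2 (ov_not o hl (Ne.symm e)) t1
          (map_natCast τ l)]
        simp [e]

theorem ex_p (N : ℕ) (L : Finset ℕ) (hL : ∀ l ∈ L, l.Prime ∧ l ≠ pp) (Q : ℕ → Ideal (𝓞 Qb))
    (hQ : ∀ p, p.Prime → Ov p (Q p)) : ∃ (p e : ℕ) (φ : GQ) (s : Qb), p.Prime ∧ p ≠ pp ∧ p ∉ L ∧
      p = pp ^ (N + 1) * e + 1 ∧ Fb p (Q p) φ ∧ (∀ x : Qb, x ^ pp ^ (N + 1) = 1 → φ x = x) ∧
      s ^ pp ^ (N + 1) = pp ∧ φ s = s ∧ ∀ l ∈ L, G2.ka pp (l : Qb) φ ≠ 0 := by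
  classical
  obtain ⟨ζ, hζ⟩ := ex_prim (N + 1)
  obtain ⟨s, hs⟩ := IsAlgClosed.exists_pow_nat_eq (pp : Qb) (pw_pos (N + 1))
  obtain ⟨g, a1, a2, a3⟩ := ex_g L hL hζ hs
  obtain ⟨W, hW, le⟩ := G2.ex_lv' (H := MulAction.stabilizer GQ ζ ⊓ MulAction.stabilizer GQ s ⊓
    ⨅ l : L, MulAction.stabilizer GQ (G2.rt pp ((l : ℕ) : Qb))) (((G2.stab_open ζ).inter
      (G2.stab_open s)).inter (show IsOpen ((⨅ l : L, MulAction.stabilizer GQ
        (G2.rt pp ((l : ℕ) : Qb)) : Subgroup GQ) : Set GQ) by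
        rw [Subgroup.coe_iInf]; exact isOpen_iInter_of_finite fun l => G2.stab_open _))
  obtain ⟨p, φ, hp, pn, ⟨P, o1, o2, f⟩, m⟩ := Cheb.cheb W hW.nrm hW.opn g (insert pp L)
  obtain ⟨⟨m1, m2⟩, m3⟩ := le m
  have p2 : p ≠ pp := fun e => pn (e ▸ Finset.mem_insert_self _ _)
  have b1 : φ ζ = ζ := by
    rw [← mul_inv_cancel_left g φ, AlgEquiv.mul_apply, show (g⁻¹ * φ) ζ = ζ from m1, a1]
  have b2 : φ s = s := by
    rw [← mul_inv_cancel_left g φ, AlgEquiv.mul_apply, show (g⁻¹ * φ) s = s from m2, a2]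
  obtain ⟨t, e⟩ := G2.Plc.ab_trans (G2.mem_ab_fp.2 ⟨p, rfl, ⟨hp, o1, o2⟩⟩)
    (G2.mem_ab_fp.2 ⟨p, rfl, hQ p hp⟩)
  obtain ⟨k, hk⟩ : pp ^ (N + 1) ∣ p - 1 := by
    let z : 𝓞 Qb := ⟨ζ, hζ.isIntegral (pw_pos _)⟩
    have e : z ^ pp ^ (N + 1) = 1 := RingOfIntegers.ext hζ.pow_eq_one
    have := f z
    rw [show φ • z = z from RingOfIntegers.ext b1] at this
    have : ζ = ζ ^ p := congrArg Subtype.val (P022E.GW.Unr.root_inj o1 (nm_pow ⟨hp, o1, o2⟩ p2) e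
      (by rw [← pow_mul, mul_comm, pow_mul, e, one_pow]) this)
    refine hζ.dvd_of_pow_eq_one _ (mul_right_cancel₀ (hζ.ne_zero (pw_pos _).ne') ?_)
    rw [← pow_succ, Nat.sub_add_cancel hp.one_le, ← this, one_mul]
  have s0 : s ≠ 0 := fun e => pq_ne (by rw [← hs, e, zero_pow (pw_pos _).ne'])
  refine ⟨p, k, t * φ * t⁻¹, s, hp, p2, fun n => pn (Finset.mem_insert_of_mem n), by
    rw [← hk, Nat.sub_add_cancel hp.one_le], fun x => ?_, fun x hx => ?_, hs, ?_, fun l n => ?_⟩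
  · rw [show Q p = t • P from Sum.inl.inj e, Ideal.mem_pointwise_smul_iff_inv_smul_mem, smul_sub,
      smul_pow', mul_smul, mul_smul, inv_smul_smul]
    exact f _
  · rw [AlgEquiv.mul_apply, AlgEquiv.mul_apply, fix_of hζ b1 (x := t⁻¹ x) (by
      rw [← map_pow, hx, map_one]), ← AlgEquiv.mul_apply, mul_inv_cancel, AlgEquiv.one_apply]
  · rw [AlgEquiv.mul_apply, AlgEquiv.mul_apply, ← div_mul_cancel₀ (t⁻¹ s) s0, map_mul φ, b2,
      fix_of hζ b1 (x := t⁻¹ s / s) (by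
        rw [div_pow, ← map_pow, hs, map_natCast, div_self pq_ne]), div_mul_cancel₀ _ s0,
      ← AlgEquiv.mul_apply, mul_inv_cancel, AlgEquiv.one_apply]
  · have l0 : (l : Qb) ≠ 0 := Nat.cast_ne_zero.2 (hL l n).1.ne_zero
    have := G2.ka_conj l0 t (gz_of fun _ => fix_of hζ b1) (map_natCast φ l)
    rw [map_natCast] at this
    rw [this, ← mul_inv_cancel_left g φ, G2.ka_add l0 (gz_of fun _ => fix_of hζ a1)
      (map_natCast g l) (map_natCast _ l), a3 l (hL l n).1, if_pos n,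
      (G2.ka_eq_zero l0 (G2.rt_pow pp _) (gz_of fun _ => fix_of hζ m1) (map_natCast _ l)).2
        (Subgroup.mem_iInf.1 m3 ⟨l, n⟩), add_zero, mul_one]
    exact G2.oz_ne t

end Q

open Q in
/-- **reciprocity over the rational field** -/
theorem recq (N : ℕ) {ζ : Qb} (hζ : IsPrimitiveRoot ζ (pp ^ N)) {y : GQ → GQ → ℚ_[pp]}
    (hy : Z2 cy ⊤ y) (L : Finset ℕ) (P : ℕ → Ideal (𝓞 Qb)) (φ : ℕ → GQ)
    (κ u : ℕ → GQ → ZMod (pp ^ N))
    (hL : ∀ l ∈ L, Ov l (P l) ∧ l ≠ pp ∧ Fb l (P l) (φ l) ∧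
      (∃ r : Qb, r ^ pp ^ N = l ∧ ∀ g : GQ, g r = ζ ^ (κ l g).val * r) ∧
      (∀ g ∈ dec (P l), ∀ h ∈ dec (P l), u l (g * h) = u l g + u l h) ∧
      (∃ W : Subgroup GQ, IsOpen (W : Set GQ) ∧ ∀ w ∈ W, w ∈ dec (P l) → u l w = 0) ∧
      (∀ i ∈ inP (P l), u l i = 0) ∧
      B2 cy (dec (P l)) fun g h => y g h - ((pp : K) ^ N)⁻¹ * ((u l g).val * (cy g * (κ l h).val)))
    (h1 : ∀ p : ℕ, p.Prime → p ∉ L → ∃ Q, Ov p Q ∧ B2 cy (dec Q) y)
    (h0 : ∃ w, B2 cy (G2.St (G2.ip w)) y) : ∑ l ∈ L, u l (φ l) = 0 := by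
  classical
  rcases N with _ | m
  · have : Subsingleton (ZMod (pp ^ 0)) := ZMod.subsingleton_iff.2 (pow_zero _)
    exact Subsingleton.elim _ _
  rcases L.eq_empty_or_nonempty with rfl | ⟨l0, hl0⟩
  · rfl
  have : ∀ q : ℕ, ∃ Q, (q ∈ L → Q = P q) ∧
      (q.Prime → Ov q Q ∧ (q ∉ L → B2 cy (dec Q) y)) := fun q => by
    by_cases a : q ∈ L
    · exact ⟨_, fun _ => rfl, fun _ => ⟨(hL q a).1, fun n => absurd a n⟩⟩
    by_cases b : q.Prime
    · exact (h1 q b a).imp fun _ h => ⟨fun n => absurd n a, fun _ => ⟨h.1, fun _ => h.2⟩⟩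
    · exact ⟨⊥, fun n => absurd n a, fun n => absurd n b⟩
  choose Q q1 q2 using this
  have ov := fun q h => (q2 q h).1
  obtain ⟨p, e, f, s, hp, p2, pL, he, fb, fx, hs, fs, fn⟩ := ex_p m L
    (fun l a => ⟨(hL l a).1.1, (hL l a).2.1⟩) Q ov
  have := Fact.mk hp
  let z : 𝓞 Qb := ⟨ζ, hζ.isIntegral (pw_pos _)⟩
  obtain ⟨χ, ad, hχ⟩ := ex_chi (ov p hp) p2 he (z := z)
    (IsPrimitiveRoot.of_map_of_injective (f := algebraMap (𝓞 Qb) Qb) hζ RingOfIntegers.coe_injective)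
  have nd : ∀ {a b : ℕ}, a.Prime → b.Prime → a ≠ b → ¬ a ∣ b := fun ha hb n d =>
    n ((Nat.prime_dvd_prime_iff_eq ha hb).1 d)
  have cq : ∀ {q k : ℕ} {R : Ideal (𝓞 Qb)} {g : GQ}, Ov q R → q ≠ p →
      (∀ x : 𝓞 Qb, g • x - x ^ k ∈ R) → (cyc p g : ZMod p) = (k : ℤ) := fun o n h => by
    have := (ZMod.natCast_eq_natCast_iff _ _ _).2
      (H853.cyc_of_pow (dvd_refl p) o.2.1 (nm_nat o (nd o.1 hp n)) h)
    rwa [ZMod.natCast_zmod_val, ← Int.cast_natCast] at this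
  have lc : Lc χ := ⟨_, H853.isOpen_cyc (m := p), fun g w a => by
    rw [ad, (hχ w 1 0 (by rw [show cyc p w = 1 from a]; simp)).1 (by simp), add_zero]⟩
  have ci : ∀ {q : ℕ} {R : Ideal (𝓞 Qb)}, Ov q R → q ≠ p → ∀ i, Inert R i → χ i = 0 :=
    fun o n i h => (hχ i _ 0 (cq (k := 1) o n fun x => by simpa using h x)).1 (by simp)
  have l0' : ∀ {R : Subgroup GQ} {k : GQ → ZMod (pp ^ (m + 1))}, Lc k → k 1 = 0 →
      ∃ W : Subgroup GQ, IsOpen (W : Set GQ) ∧ ∀ w ∈ W, w ∈ R → k w = 0 :=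
    fun ⟨W, a, b⟩ h => ⟨W, a, fun w n _ => by rw [← one_mul w, b 1 w n, h]⟩
  have c1 : χ 1 = 0 := by simpa using ad 1 1
  have fb' : ∀ x : 𝓞 Qb, f • x - x ^ (pp ^ (m + 1) * e + 1) ∈ Q p := he ▸ fb
  choose r r1 r2 using fun l (a : l ∈ L) => (hL l a).2.2.2.1
  have r0 : ∀ l a, r l a ≠ 0 := fun l a n => (Nat.cast_ne_zero (R := Qb)).2 (hL l a).1.1.ne_zero
    (by rw [← r1 l a, n, zero_pow (pw_pos _).ne'])
  have np : ∀ l ∈ L, l ≠ p := fun l a n => pL (n ▸ a)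
  have cf' : ∀ l ∈ L, χ (φ l) = κ l f := fun l a =>
    (hχ _ l _ (cq (hL l a).1 (np l a) (hL l a).2.2.1)).1 (by
      simpa using kum_q (ov p hp) (z := z) (nd hp (hL l a).1.1 (np l a).symm) (r1 l a) fb' (r2 l a f))
  have od : ∀ l ∈ L, ¬ pp ∣ (χ (φ l)).val := fun l a => by
    rw [cf' l a]
    rintro ⟨j, hj⟩
    refine fn l a ((G2.ka_eq_zero (β := r l a ^ pp ^ m) (Nat.cast_ne_zero.2 (hL l a).1.1.ne_zero) (by
      rw [← pow_mul, ← pow_succ, r1]) (gz_of fx) (map_natCast f l)).2 ?_)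
    rw [map_pow, r2, mul_pow, hj, ← pow_mul, mul_right_comm, ← pow_succ', pow_mul,
      hζ.pow_eq_one, one_pow, one_mul]
  have : ∀ l, ∃ b, l ∈ L → b * χ (φ l) = u l (φ l) := fun l => by
    by_cases a : l ∈ L
    · obtain ⟨b, hb⟩ := ((ZMod.isUnit_iff_coprime (χ (φ l)).val (pp ^ (m + 1))).2
        ((pp_prime.coprime_iff_not_dvd.2 (od l a)).symm.pow_right _)).exists_left_inv
      rw [ZMod.natCast_zmod_val] at hb
      exact ⟨u l (φ l) * b, fun _ => by rw [mul_assoc, hb, mul_one]⟩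
    · exact ⟨0, fun n => absurd n a⟩
  choose b hb using this
  have kc : ∀ l ∈ L, Rc.Q.Co (κ l) := fun l a => kum_co hζ (r0 l a) (r2 l a)
  have ki : ∀ (T : Finset ℕ) q, T ⊆ L → q.Prime → q ≠ pp → q ∉ T → ∀ i, Inert (Q q) i →
      ∑ l ∈ T, b l * κ l i = 0 := fun T q le hq n2 n i hi => Finset.sum_eq_zero fun l a => by
    rw [kum_in hζ (ov q hq) n2 (nd hq (hL l (le a)).1.1 fun k => n (k ▸ a)) (r1 l (le a)) hi
      (r2 l _ i), mul_zero]
  have ur : ∀ (T : Finset ℕ) q, T ⊆ L → q.Prime → q ≠ pp → q ≠ p → q ∉ T →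
      B2 cy (dec (Q q)) (cu χ fun g => ∑ l ∈ T, b l * κ l g) := fun T q le hq n2 n n' => by
    have co := co_sum T b fun l a => kc l (le a)
    rw [← top_inf_eq (dec (Q q))]
    exact unr1 isOpen_univ (ov q hq) n2 le_top (cu_z2 ad lc co) fun g _ h _ i hi => by
      simp only [cu, ad, ec_mul, co.co, ci (ov q hq) n i hi, ec_in (ov q hq) n2 hi,
        ki T q le hq n2 n' i hi, add_zero, mul_one, mul_zero, sub_self, zero_mem, and_self]
  have co := co_sum L b kc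
  set k : GQ → ZMod (pp ^ (m + 1)) := fun g => ∑ l ∈ L, b l * κ l g with hk
  have z0 : ∀ R : Subgroup GQ, B2 cy R y → (∀ g ∈ R, χ g = 0) →
      B2 cy R fun g h => y g h - cu χ k g h := fun R a h =>
    b2_sub' a (Rc.Q.b2_zero (x := cu χ k) fun g hg j _ => by simp [cu, vv, h g hg]) (by simp)
  have loc : ∀ v, v.Prime → v ≠ p → B2 cy (dec (Q v)) fun g h => y g h - cu χ k g h := by
    intro v hv n
    by_cases n2 : v = pp
    · subst n2
      obtain ⟨F, hF⟩ := exists_phi hv (ov _ hv).2.1 (ov _ hv).2.2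
      refine z0 _ ((q2 _ hv).2 fun a => (hL _ a).2.1 rfl) (gen0 (ov _ hv) hF
        (fun g _ j _ => ad g j) (l0' lc c1) (ci (ov _ hv) n) ?_)
      exact (hχ _ (pp : ℕ) 0 (cq (ov _ hv) n hF)).1 (by
        simpa using kum_q (ov p hp) (z := z) (j := 0) (nd hp hv n.symm) hs fb' (by simpa using fs))
    by_cases a : v ∈ L
    swap
    · exact b2_sub' ((q2 v hv).2 a) (ur L v le_rfl hv n2 n a)
        fun g _ h _ => O_of (zero_mem _) (sub_self _)
    obtain ⟨o, -, f1, -, u1, ⟨W, hW, u2⟩, u3, u4⟩ := hL v a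
    have u5 := ur (L.erase v) v (L.erase_subset v) hv n2 n (L.notMem_erase v)
    rw [q1 v a] at u5 ⊢
    obtain ⟨W', hW', u6⟩ := l0' (R := dec (P v)) lc c1
    have u7 := gen0 (f := fun g => u v g - b v * χ g) o f1
      (fun g hg j hj => by rw [u1 g hg j hj, ad]; ring)
      ⟨W ⊓ W', hW.inter hW', fun x a a' => by rw [u2 x a.1 a', u6 x a.2 a']; ring⟩
      (fun i hi => by rw [u3 i hi, ci o n i hi]; ring) (sub_eq_zero.2 (hb v a).symm)
    refine b2_sub' u4 u5 fun g hg j _ => mem_of (N := m + 1) ((u v g).val * (cz g * (κ v j).val) +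
      (χ g * (ec _ g * ∑ l ∈ L.erase v, b l * κ l j)).val - (χ g * (ec _ g * k j)).val) ?_ ?_
    · simp only [map_sub, map_add, map_mul, map_natCast, ZMod.natCast_zmod_val, hk]
      rw [← ec, sub_eq_zero.1 (u7 g hg), ← Finset.add_sum_erase L _ a]
      ring
    · simp only [cu, vv, cy_apply]
      push_cast
      ring
  let rd := ZMod.castHom (dvd_pow_self pp m.succ_ne_zero) (ZMod pp)
  have rv : ∀ a, (rd a).val = a.val % pp := fun a => by
    rw [← ZMod.natCast_zmod_val a, map_natCast, ZMod.val_natCast, ZMod.natCast_zmod_val]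
  have pt : ∃ i ∈ inP (Q p), -rd (χ i) ≠ 0 := by
    obtain ⟨i, i1, i2⟩ := H297.L3.inert_cyc (m := p) (k := 1) (m' := 1) hp (by simp) (by simp)
      (ov p hp).2.1 (ov p hp).2.2 (cyc p (φ l0)) (Nat.modEq_one)
    have k := cq (hL l0 hl0).1 (np l0 hl0) (hL l0 hl0).2.2.1
    refine ⟨i, i1, fun n => od l0 hl0 ?_⟩
    rwa [(hχ i l0 _ (i2 ▸ k)).1 ((hχ _ l0 _ k).2 rfl), neg_eq_zero, ← ZMod.val_eq_zero, rv,
      ← Nat.dvd_iff_mod_eq_zero] at n
  have gz : dec (Q p) ≤ G2.Gz pp := frob0 (ov p hp) fb (mem_nhdsWithin_of_mem_nhds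
    (G2.Gz_open.mem_nhds (one_mem _))) (G2.tam pp p _ (ov p hp) p2).1 (gz_of fx)
  have ch : G2.Ch (dec (Q p)) fun g => -rd (χ g) := by
    obtain ⟨W, hW, a⟩ := l0' (R := ⊤) lc c1
    obtain ⟨V, hV, le⟩ := G2.ex_lv' hW
    exact ⟨fun g _ j _ => by simp only [ad, map_add, neg_add], V, hV, fun w _ b => by
      simp only [a w (le b) trivial, map_zero, neg_zero]⟩
  have e1 : ∀ g ∈ dec (Q p), ec (m + 1) g = 1 := fun g hg => ec_one hζ
    (frob0 (H := MulAction.stabilizer GQ ζ) (ov p hp) fb (mem_nhdsWithin_of_mem_nhds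
      ((G2.stab_open ζ).mem_nhds (one_mem _))) (fun i hi => show i ζ = ζ by
        rw [cz_spec i hζ.pow_eq_one, ← ec, ec_in (ov p hp) p2 hi,
          ← Nat.cast_one (R := ZMod (pp ^ (m + 1))), pw_nat hζ.pow_eq_one, pow_one]) (fx ζ hζ.pow_eq_one) hg)
  have st : ∀ j : ℕ, (pp ^ (j + 1) : ℕ) * k f = 0 → (pp ^ j : ℕ) * k f = 0 := fun j hj => by
    have hf : ∀ g ∈ dec (Q p), pp * ((pp : K) ^ j * vv (k g)) ∈ O := fun g hg => O_of ((vv_mul _ _).2
      (gen0 (f := fun g => ((pp ^ (j + 1) : ℕ) : ZMod (pp ^ (m + 1))) * k g) (ov p hp) fb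
        (fun g hg i _ => by rw [co.co, e1 g hg]; ring)
        ((l0' co.lc co.one).imp fun W a => ⟨a.1, fun x b b' => by rw [a.2 x b b', mul_zero]⟩)
        (fun i hi => by rw [show k i = 0 from ki L p le_rfl hp p2 pL i hi, mul_zero]) hj g hg))
      (by push_cast; ring)
    have := rcp (ov p hp) p2 fb gz (pow_z2 (z2_sub' hy (cu_z2 ad lc co)) j) ch pt
      (θ := fun g => (pp : K) ^ j * vv (k g))
      (co.lc.lc.comp fun a => (pp : K) ^ j * vv a).continuous.continuousOn hf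
      (fun g hg i _ => ?_) (fun i hi => ?_) (b2_sub' (pow_b2 ((q2 p hp).2 pL) j)
        (Rc.Q.b2_zero (x := fun _ _ => 0) (by simp)) fun g hg i hi => ?_)
      fun v hv n => ⟨_, ov v hv, pow_b2 (loc v hv n) j⟩
    · exact (vv_mul _ _).1 (O_of this (by push_cast; ring))
    · refine mem_of (N := m + 1) ((pp ^ j : ℕ) * ((k (g * i)).val - (k g).val - (k i).val)) ?_ ?_
      · simp only [map_sub, map_mul, map_natCast, ZMod.natCast_zmod_val, co.co, e1 g hg]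
        ring
      · simp only [vv, PadicInt.coe_mul, PadicInt.coe_sub, PadicInt.coe_natCast]
        push_cast
        ring
    · simp [show k i = 0 from ki L p le_rfl hp p2 pL i hi, vv]
    · have a1 := mem_of (N := m + 1) (x := (χ g).val * vv (k i) - vv (χ g * k i))
        ((χ g).val * (k i).val - (χ g * k i).val) (by simp) (by simp only [vv]; push_cast; ring)
      obtain ⟨c, a2⟩ : pp ∣ (χ g).val + (-rd (χ g)).val := by
        rw [← ZMod.natCast_eq_zero_iff, Nat.cast_add, ZMod.natCast_zmod_val, ← map_natCast rd,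
          ZMod.natCast_zmod_val, add_neg_cancel]
      have a3 : ((χ g).val : K) + (-rd (χ g)).val = pp * c := by exact_mod_cast a2
      refine O_of (sub_mem (O_mul (O_pow j) a1) (O_mul (O_nat c) (hf i hi))) ?_
      rw [cu, e1 g hg, one_mul]
      linear_combination (-(pp : K) ^ j * vv (k i)) * a3
  have fin : ∀ i j : ℕ, (pp ^ (j + i) : ℕ) * k f = 0 → (pp ^ j : ℕ) * k f = 0 := fun i => by
    induction i with
    | zero => exact fun _ h => h
    | succ i ih => exact fun j h => ih j (st _ h)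
  have := fin (m + 1) 0 (by rw [zero_add, ZMod.natCast_self, zero_mul])
  rw [pow_zero, Nat.cast_one, one_mul] at this
  rw [← this]
  exact Finset.sum_congr rfl fun l a => by rw [← hb l a, cf' l a]

end Vale.Agent.P014U.X4F.Rc
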