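import Vale.Agent.P014U.X4F.Rec.Nf
import Vale.Agent.P014U.X4F.Rec.Q

/-!
# P014U, block REC: reduction modulo `pp ^ n` (helper37)
-/

set_option linter.all false

noncomputable section

namespace Vale.Agent.P014U.X4F.Rc

open Vale.Agent.P014U.X4S.Ga (K O mem_O)
open Vale.Agent.P014U.X4S.Aq

variable [Pp]

open Classical in
/-- reduction modulo `pp ^ n` -/
def tz (n : ℕ) (x : K) : ZMod (pp ^ n) := if h : x ∈ O then PadicInt.toZModPow n ⟨x, h⟩ else 0

variable {n : ℕ} {x y : K}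

theorem tz_coe (a : ℤ_[pp]) : tz n a = PadicInt.toZModPow n a := dif_pos a.2

theorem tz_add (hx : x ∈ O) (hy : y ∈ O) : tz n (x + y) = tz n x + tz n y := by
  obtain ⟨a, rfl⟩ := O_ex hx
  obtain ⟨b, rfl⟩ := O_ex hy
  rw [← PadicInt.coe_add, tz_coe, tz_coe, tz_coe, map_add]

theorem tz_zero (hx : x ∈ O) : tz n x = 0 ↔ hn n * x ∈ O := by
  obtain ⟨a, rfl⟩ := O_ex hx
  rw [tz_coe, dv_iff, hn]

theorem tz_val (hx : x ∈ O) : hn n * (x - (tz n x).val) ∈ O := by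
  obtain ⟨a, rfl⟩ := O_ex hx
  have := (dv_iff n (a - (PadicInt.toZModPow n a).val)).1 (by simp)
  rwa [PadicInt.coe_sub, PadicInt.coe_natCast, ← tz_coe] at this

theorem tz_lev (hx : (pp : K) ^ n * x ∈ O) : x - hn n * (tz n ((pp : K) ^ n * x)).val ∈ O :=
  O_of (tz_val (n := n) hx) (by linear_combination (-x) * hn_mul n)

theorem tz_lev0 (hx : (pp : K) ^ n * x ∈ O) : tz n ((pp : K) ^ n * x) = 0 ↔ x ∈ O := by
  rw [tz_zero hx, ← mul_assoc, mul_comm (hn n), hn_mul, one_mul]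

end Vale.Agent.P014U.X4F.Rc
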