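import Vale.Agent.P014U.Base
import Vale.Agent.P004F.Rec.St

/-! # P014U, block REC: words (helper42) -/

set_option linter.all false

noncomputable section

namespace Vale.Agent.P014U.X4F.Rc

open Vale.Agent.P022

export Vale.Agent.P004F.Rc (Co Tv Ur Tr)

variable [Pp]

/-- `g` raises the roots of unity of order `pp ^ N` to the power `k` -/
def Cy (N : ℕ) (g : GQ) (k : ℕ) : Prop := ∀ ζ : Qb, ζ ^ pp ^ N = 1 → g ζ = ζ ^ k

end Vale.Agent.P014U.X4F.Rc
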