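import Vale.Agent.P014U.X4F.Rec.Kum
import Vale.Agent.P014U.X4S.A.Coh
import Vale.Agent.P004F.Rec.Cor

/-!
# P014U, block REC: cocycles, unramified classes, homogeneous cochains (helper37)
-/

set_option linter.all false

noncomputable section

namespace Vale.Agent.P014U.X4F.Rc

open NumberField Topology Filter
open Vale.Agent.P022 Vale.Agent.P022K
open Vale.Agent.P027M.S (Inert)
open Vale.Agent.P022D.W (dec inP_le_dec conj_inP phi_mem dec_gen)
open Vale.Agent.P022.H443 (inP)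
open Vale.Agent.P022E.GW (Ov Fb)
open Vale.Agent.P014U.X4S.Ga (K O mem_O d2 d3 Z2 B2)
open Vale.Agent.P014U.X4S.Aq

export Vale.Agent.P004F.Rc (pr pr_of pr_not mul_out pr_mem pr_in pr_mul pr_cont)

variable [Pp]

variable {Γ D H : Subgroup GQ} {z w : GQ → GQ → K} {n l : ℕ} {P : Ideal (𝓞 Qb)}

theorem b2_add (h : B2 cy D z) (h' : B2 cy D w) : B2 cy D fun g j => z g j + w g j := by
  obtain ⟨a, a1, a2⟩ := h
  obtain ⟨b, b1, b2⟩ := h'
  exact ⟨fun g => a g + b g, a1.add b1, fun g hg j hj =>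
    O_of (add_mem (a2 g hg j hj) (b2 g hg j hj)) (by simp only [d2]; ring)⟩

theorem b2_neg (h : B2 cy D z) : B2 cy D fun g j => -z g j := by
  obtain ⟨a, a1, a2⟩ := h
  exact ⟨fun g => -a g, a1.neg, fun g hg j hj =>
    O_of (neg_mem (a2 g hg j hj)) (by simp only [d2]; ring)⟩

theorem b2_congr (h : B2 cy D z) (e : ∀ g ∈ D, ∀ j ∈ D, w g j - z g j ∈ O) : B2 cy D w :=
  h.imp fun a ha => ⟨ha.1, fun g hg j hj => O_of (add_mem (e g hg j hj) (ha.2 g hg j hj)) (by ring)⟩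

theorem b2_mono (h : B2 cy D z) (e : H ≤ D) : B2 cy H z :=
  h.imp fun a ha => ⟨ha.1.mono e, fun g hg j hj => ha.2 g (e hg) j (e hj)⟩

theorem b2_zero (e : ∀ g ∈ D, ∀ j ∈ D, z g j ∈ O) : B2 cy D z :=
  ⟨0, continuousOn_const, fun g hg j hj => by simpa [d2] using e g hg j hj⟩

theorem z2_mono (h : Z2 cy D z) (e : H ≤ D) : Z2 cy H z :=
  ⟨h.cont.mono (Set.prod_mono e e), fun g hg j hj k hk => h.coc g (e hg) j (e hj) k (e hk)⟩

theorem z2_dif (h : Z2 cy D z) (h' : Z2 cy D w) : Z2 cy D fun g j => z g j - w g j :=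
  ⟨h.cont.sub h'.cont, fun g hg j hj k hk =>
    O_of (sub_mem (h.coc g hg j hj k hk) (h'.coc g hg j hj k hk)) (by simp only [d3]; ring)⟩

theorem cup_z2 {u κ : GQ → K} {β : Qb} (hu : Ad D u) (lu : ∀ g ∈ D, (pp : K) ^ n * u g ∈ O)
    (k : Km n β κ) : Z2 cy D fun g j => u g * (cy g * κ j) :=
  ⟨(hu.cont.comp continuousOn_fst fun _ m => m.1).mul ((cy_cont.comp continuous_fst).mul
    (k.cont.comp continuous_snd)).continuousOn, fun g hg j hj i _ =>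
    O_of (sub_mem (O_mul (O_cy g) (O_lv (lu g hg) (k.coc j i)))
      (O_mul (hu.add g hg j hj) (O_mul (O_cy g) (O_mul (O_cy j) (k.int i)))))
      (by simp only [d3, map_mul]; ring)⟩

/-- unramified classes, the place is unramified over the rational field -/
theorem unr1 (o : IsOpen (H : Set GQ)) (ov : Ov l P) (p2 : l ≠ pp) (ur : inP P ≤ H)
    (hz : Z2 cy (H ⊓ dec P) z) (hi : Iv (H ⊓ dec P) (inP P) z) : B2 cy (H ⊓ dec P) z := by
  have cl := G2.inf_dec_closed o P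
  have le : inP P ≤ H ⊓ dec P := le_inf ur inP_le_dec
  refine (ind (N := inP P) cl (fun g hg i m => by simpa using conj_inP (inv_mem hg.2) m)
    (fun i m => cy_in ov p2 m) (fun _ => True) (fun _ _ => trivial) (fun _ _ _ _ => trivial)
    (fun z hz hf hi _ => ?_) hz hi trivial).imp fun θ h => ⟨h.1, h.2.2⟩
  obtain ⟨a, ha, e⟩ := rowU (ZMod pp) H l _ (fun g j => rz (z g j)) o ov (toZ cl hz hf)
    fun g hg j hj i _ m => (hi g hg j hj i m).imp rz_congr rz_congr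
  simp only [G2.d1_apply, G2.ch_apply] at e
  have a1 : ∀ g ∈ H ⊓ dec P, ∀ i ∈ inP P, a (g * i) = a g + ω g * (a i - a 1) := fun g hg i m => by
    have k := rz_congr (hi g hg 1 (one_mem _) i m).2
    rw [one_mul, e g hg i (le m), e g hg 1 (one_mem _), mul_one] at k
    linear_combination -k
  obtain ⟨c, hc⟩ := (G2.tam pp l _ ov p2).2.2 (ZMod pp) _ (fun i => a i - a 1)
    (fun g j hg hj => by
      rw [a1 g (le hg) j hj, show ω g = 1 from (G2.om_eq_one _).2 (G2.inert_gz ov p2 hg)]; ring)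
    (ha.imp fun W hW => ⟨hW.1, fun w m hw => by
      rw [← one_mul w, hW.2 1 (one_mem _) w (le hw) m, sub_self]⟩)
  have l0 : (l : Qb) ≠ 0 := Nat.cast_ne_zero.2 ov.1.ne_zero
  have kc : ∀ g j, G2.ka pp l (g * j) = G2.ka pp l g + ω g * G2.ka pp l j := fun g j => by
    rw [om_oz, G2.ka_coc l0 (map_natCast g l) (map_natCast j l)]
  obtain ⟨k1, k2⟩ := ofB hf (a := a - c • G2.ka pp l) (sub_mem ha (Submodule.smul_mem _ c
    ((G2.ka_lv l0).imp fun W hW => ⟨hW.1, fun g _ w _ m => by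
      rw [kc, (hW.2 w m).2, mul_zero, add_zero]⟩))) fun g hg j hj => by
    simp only [Pi.sub_apply, Pi.smul_apply, smul_eq_mul]
    rw [e g hg j hj, kc]; ring
  refine ⟨_, k1, fun g hg i m => O_of (zero_mem _) (sub_eq_zero.2 (congrArg sz ?_)), k2⟩
  have := hc i m
  simp only [Pi.sub_apply, Pi.smul_apply, smul_eq_mul] at this ⊢
  rw [a1 g hg i m, kc, this, ZMod.castHom_self, RingHom.id_apply]
  ring

/-- homogeneous cocycles -/
structure Hz (H : Subgroup GQ) (Y : Set GQ) (Z : GQ × GQ × GQ → K) : Prop where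
  cont : ContinuousOn Z (Y ×ˢ Y ×ˢ Y)
  coc : ∀ a ∈ Y, ∀ b ∈ Y, ∀ c ∈ Y, ∀ d ∈ Y,
    Z (b, c, d) - Z (a, c, d) + Z (a, b, d) - Z (a, b, c) ∈ O
  eqv : ∀ γ ∈ H, ∀ x ∈ Y ×ˢ Y ×ˢ Y, Z (γ • x) - cy γ * Z x ∈ O

/-- homogeneous coboundaries -/
def Hb (H : Subgroup GQ) (X : Set GQ) (Z : GQ × GQ × GQ → K) : Prop :=
  ∃ Θ : GQ × GQ → K, ContinuousOn Θ (X ×ˢ X) ∧
    (∀ γ ∈ H, ∀ x ∈ X ×ˢ X, Θ (γ • x) - cy γ * Θ x ∈ O) ∧
    ∀ a ∈ X, ∀ b ∈ X, ∀ c ∈ X, Z (a, b, c) - (Θ (b, c) - Θ (a, c) + Θ (a, b)) ∈ O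

variable {X Y : Set GQ} {Z W : GQ × GQ × GQ → K}

theorem Hz.mono (h : Hz H Y Z) (e : D ≤ H) (f : X ⊆ Y) : Hz D X Z :=
  ⟨h.cont.mono (Set.prod_mono f (Set.prod_mono f f)),
    fun a ha b hb c hc d hd => h.coc a (f ha) b (f hb) c (f hc) d (f hd),
    fun γ m x hx => h.eqv γ (e m) x (Set.prod_mono f (Set.prod_mono f f) hx)⟩

theorem Hz.sub (h : Hz H Y Z) (h' : Hz H Y W) : Hz H Y fun x => Z x - W x :=
  ⟨h.cont.sub h'.cont, fun a ha b hb c hc d hd =>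
    O_of (sub_mem (h.coc a ha b hb c hc d hd) (h'.coc a ha b hb c hc d hd)) (by ring),
    fun γ m x hx => O_of (sub_mem (h.eqv γ m x hx) (h'.eqv γ m x hx)) (by ring)⟩

theorem prism (h : Hz H Y Z) (xy : X ⊆ Y) (hy : (H : Set GQ) ⊆ Y) {p : GQ → GQ}
    (pc : Continuous p) (pm : ∀ x ∈ X, p x ∈ H) (pe : ∀ γ ∈ H, ∀ x, p (γ * x) = γ * p x)
    (b : B2 cy H fun g j => Z (1, g, g * j)) : Hb H X Z := by
  obtain ⟨θ, t1, t2⟩ := b
  have py : ∀ x ∈ X, p x ∈ Y := fun x hx => hy (pm x hx)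
  refine ⟨fun x => cy (p x.1) * θ ((p x.1)⁻¹ * p x.2) + Z (x.1, x.2, p x.2) -
    Z (x.1, p x.1, p x.2), ?_, fun γ m x hx => ?_, fun a ha b hb c hc => ?_⟩
  · refine (((cy_cont.comp (by fun_prop)).continuousOn.mul (t1.comp
      (f := fun x : GQ × GQ => (p x.1)⁻¹ * p x.2) (by fun_prop) fun x hx =>
        mul_mem (inv_mem (pm _ hx.1)) (pm _ hx.2))).add (h.cont.comp
      (f := fun x : GQ × GQ => (x.1, x.2, p x.2)) (by fun_prop) fun x hx =>
        ⟨xy hx.1, xy hx.2, py _ hx.2⟩)).sub (h.cont.comp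
      (f := fun x : GQ × GQ => (x.1, p x.1, p x.2)) (by fun_prop) fun x hx =>
        ⟨xy hx.1, py _ hx.1, py _ hx.2⟩)
  · refine O_of (sub_mem (h.eqv γ m (x.1, x.2, p x.2) ⟨xy hx.1, xy hx.2, py _ hx.2⟩)
      (h.eqv γ m (x.1, p x.1, p x.2) ⟨xy hx.1, py _ hx.1, py _ hx.2⟩)) ?_
    simp only [Prod.smul_fst, Prod.smul_snd, Prod.smul_mk, smul_eq_mul, pe γ m, map_mul,
      mul_inv_rev, mul_assoc, inv_mul_cancel_left]
    ring
  · have ma := pm a ha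
    have m1 := mul_mem (inv_mem ma) (pm b hb)
    have m2 := mul_mem (inv_mem (pm b hb)) (pm c hc)
    have e1 := h.eqv _ ma (1, (p a)⁻¹ * p b, (p a)⁻¹ * p c)
      ⟨hy H.one_mem, hy m1, hy (mul_mem (inv_mem ma) (pm c hc))⟩
    have e2 := O_mul (O_cy (p a)) (t2 _ m1 _ m2)
    have e3 : cy (p a) * cy ((p a)⁻¹ * p b) = cy (p b) := by rw [← map_mul, mul_inv_cancel_left]
    simp only [Prod.smul_mk, smul_eq_mul, mul_one, mul_inv_cancel_left, d2, mul_assoc] at e1 e2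
    refine O_of (sub_mem (add_mem e1 e2) (add_mem (sub_mem
      (h.coc a (xy ha) b (xy hb) c (xy hc) _ (py c hc))
      (h.coc a (xy ha) b (xy hb) _ (py b hb) _ (py c hc)))
      (h.coc a (xy ha) _ (py a ha) _ (py b hb) _ (py c hc)))) ?_
    simp only [← e3]
    ring

theorem cy_inv (g : GQ) : cy g⁻¹ * cy g = 1 := by rw [← map_mul, inv_mul_cancel, map_one]

end Vale.Agent.P014U.X4F.Rc
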