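import Vale.Agent.P014U.X4F.Rec.Cor
import Vale.Agent.P004F.Rec.Nf

/-!
# P014U, block REC: characters with values in `K ⧸ O` (helper37)
-/

set_option linter.all false

noncomputable section

namespace Vale.Agent.P014U.X4F.Rc

open Vale.Agent.P014U.X4S.Ga (K O mem_O)
open Vale.Agent.P014U.X4S.Aq

variable [Pp] {N : ℕ}

theorem ex_F {A : Type} [AddCommGroup A] {x : A} (h : pp ^ N • x = 0) (h0 : x ≠ 0) :
    ∃ F : A →+ K ⧸ O, F x ≠ 0 := by
  obtain ⟨c, hc⟩ := CharacterModule.exists_character_apply_ne_zero_of_ne_zero h0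
  let ι := QuotientAddGroup.map (AddSubgroup.zmultiples (1 : ℚ)) O (Rat.castHom K).toAddMonoidHom
    (AddSubgroup.zmultiples_le.2 (O_of O_one Rat.cast_one))
  refine ⟨ι.comp c, fun e => hc ?_⟩
  obtain ⟨q, hq⟩ := QuotientAddGroup.mk_surjective (c x)
  have e1 : (q : K) ∈ O := mq_zero.1 ((congrArg ι hq).trans e)
  obtain ⟨k, hk⟩ : pp ^ N • q ∈ AddSubgroup.zmultiples (1 : ℚ) :=
    (QuotientAddGroup.eq_zero_iff _).1 (by
      rw [QuotientAddGroup.mk_nsmul, hq, ← map_nsmul, h, map_zero])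
  replace hk : (k : ℚ) = (pp : ℚ) ^ N * q := by simpa using hk
  have e2 := (dv_iff N k).2 (O_of e1 (by
    rw [PadicInt.coe_intCast, ← Rat.cast_intCast, hk]; push_cast; rw [inv_mul_cancel_left₀ (pow_ne_zero _ pk_ne)]))
  rw [map_intCast, ZMod.intCast_zmod_eq_zero_iff_dvd] at e2
  obtain ⟨j, rfl⟩ := e2
  rw [← hq]
  refine (QuotientAddGroup.eq_zero_iff _).2 ⟨j, mul_left_cancel₀ (pow_ne_zero N (Nat.cast_ne_zero.2 pp_ne)) ?_⟩
  simpa using hk

end Vale.Agent.P014U.X4F.Rc
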